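import Mathlib

/-!
The space average of the growth rate of the derivative of the standard map.
-/

open MeasureTheory Filter Topology Set

namespace Vale.Agent.P108

instance instProbCircle : IsProbabilityMeasure (volume : Measure UnitAddCircle) :=
  ⟨by simp⟩

/-- The two-torus. -/
abbrev Torus : Type := UnitAddCircle × UnitAddCircle

/-- The function `x ↦ sin (2 π x)` on the circle. -/
noncomputable def sinC (x : UnitAddCircle) : ℝ := (fourier 1 x).im

/-- The function `x ↦ cos (2 π x)` on the circle. -/
noncomputable def cosC (x : UnitAddCircle) : ℝ := (fourier 1 x).re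

/-- The standard map. -/
noncomputable def stdMap (k : ℝ) (z : Torus) : Torus :=
  (z.1 + z.2 + ((k * sinC z.1 : ℝ) : UnitAddCircle), z.2 + ((k * sinC z.1 : ℝ) : UnitAddCircle))

/-- The derivative of the standard map, acting on tangent vectors. -/
noncomputable def deriv1 (k : ℝ) (z : Torus) : ℝ × ℝ →L[ℝ] ℝ × ℝ :=
  ContinuousLinearMap.prod
    ((1 + 2 * Real.pi * k * cosC z.1) • ContinuousLinearMap.fst ℝ ℝ ℝ +
      ContinuousLinearMap.snd ℝ ℝ ℝ)
    ((2 * Real.pi * k * cosC z.1) • ContinuousLinearMap.fst ℝ ℝ ℝ +
      ContinuousLinearMap.snd ℝ ℝ ℝ)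

/-- The derivative of the `n`-th iterate, by the chain rule. -/
noncomputable def derivN (k : ℝ) : ℕ → Torus → (ℝ × ℝ →L[ℝ] ℝ × ℝ)
  | 0, _ => ContinuousLinearMap.id ℝ (ℝ × ℝ)
  | n + 1, z => (deriv1 k ((stdMap k)^[n] z)).comp (derivN k n z)

/-- The space average of the logarithm of the norm of the derivative of the `n`-th iterate. -/
noncomputable def growth (k : ℝ) (n : ℕ) : ℝ :=
  ∫ z : Torus, Real.log ‖derivN k n z‖ ∂(volume.prod volume)

theorem continuous_sinC : Continuous sinC :=
  Complex.continuous_im.comp (fourier 1).continuous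

theorem continuous_cosC : Continuous cosC :=
  Complex.continuous_re.comp (fourier 1).continuous

theorem measurePreserving_stdMap (k : ℝ) :
    MeasurePreserving (stdMap k) ((volume : Measure UnitAddCircle).prod volume)
      ((volume : Measure UnitAddCircle).prod volume) := by
  have h1 : MeasurePreserving
      (fun z : Torus => (z.1, z.2 + ((k * sinC z.1 : ℝ) : UnitAddCircle)))
      ((volume : Measure UnitAddCircle).prod volume)
      ((volume : Measure UnitAddCircle).prod volume) := by
    refine MeasurePreserving.skew_product (g := fun x y => y + ((k * sinC x : ℝ) : UnitAddCircle))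
      (MeasurePreserving.id volume) ?_ ?_
    · exact (continuous_snd.add ((AddCircle.continuous_mk' 1).comp
        (continuous_const.mul (continuous_sinC.comp continuous_fst)))).measurable
    · exact Filter.Eventually.of_forall fun x => map_add_right_eq_self volume _
  have h2 : MeasurePreserving (fun z : Torus => (z.1, z.2 + z.1))
      ((volume : Measure UnitAddCircle).prod volume)
      ((volume : Measure UnitAddCircle).prod volume) := by
    refine MeasurePreserving.skew_product (g := fun x y => y + x)
      (MeasurePreserving.id volume) ?_ ?_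
    · exact (continuous_snd.add continuous_fst).measurable
    · exact Filter.Eventually.of_forall fun x => map_add_right_eq_self volume x
  have hs : MeasurePreserving (Prod.swap : Torus → Torus)
      ((volume : Measure UnitAddCircle).prod volume)
      ((volume : Measure UnitAddCircle).prod volume) := Measure.measurePreserving_swap
  have := hs.comp (h2.comp (hs.comp h1))
  convert this using 1
  funext z
  simp [stdMap, Function.comp, Prod.swap, add_assoc]

theorem continuous_stdMap : Continuous fun p : ℝ × Torus => stdMap p.1 p.2 := by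
  have h : Continuous fun p : ℝ × Torus => ((p.1 * sinC p.2.1 : ℝ) : UnitAddCircle) :=
    (AddCircle.continuous_mk' 1).comp
      (continuous_fst.mul (continuous_sinC.comp (continuous_fst.comp continuous_snd)))
  exact (((continuous_fst.comp continuous_snd).add (continuous_snd.comp continuous_snd)).add h
    ).prodMk ((continuous_snd.comp continuous_snd).add h)

theorem continuous_iterate (n : ℕ) :
    Continuous fun p : ℝ × Torus => (stdMap p.1)^[n] p.2 := by
  induction n with
  | zero => exact continuous_snd
  | succ n ih =>
      simp only [Function.iterate_succ_apply']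
      exact continuous_stdMap.comp (continuous_fst.prodMk ih)

theorem continuous_deriv1 : Continuous fun p : ℝ × Torus => deriv1 p.1 p.2 := by
  refine continuous_clm_apply.2 fun v => ?_
  have hc : Continuous fun p : ℝ × Torus => 2 * Real.pi * p.1 * cosC p.2.1 :=
    (continuous_const.mul continuous_fst).mul
      (continuous_cosC.comp (continuous_fst.comp continuous_snd))
  simp only [deriv1, ContinuousLinearMap.prod_apply, add_apply, smul_apply,
    ContinuousLinearMap.coe_fst', ContinuousLinearMap.coe_snd', smul_eq_mul]
  fun_prop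

theorem continuous_derivN (n : ℕ) : Continuous fun p : ℝ × Torus => derivN p.1 n p.2 := by
  induction n with
  | zero => exact continuous_const
  | succ n ih =>
      exact (continuous_deriv1.comp (continuous_fst.prodMk (continuous_iterate n))).clm_comp ih

/-- The area form. -/
def area (u v : ℝ × ℝ) : ℝ := u.1 * v.2 - u.2 * v.1

theorem area_derivN (k : ℝ) (n : ℕ) (z : Torus) (u v : ℝ × ℝ) :
    area (derivN k n z u) (derivN k n z v) = area u v := by
  induction n with
  | zero => simp [derivN]
  | succ n ih =>
      rw [← ih]
      simp [derivN, deriv1, area]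
      ring

theorem half_le_norm (k : ℝ) (n : ℕ) (z : Torus) : 1 / 2 ≤ ‖derivN k n z‖ := by
  set A := derivN k n z with hA
  have h := area_derivN k n z (1, 0) (0, 1)
  have he : ‖((1 : ℝ), (0 : ℝ))‖ = 1 ∧ ‖((0 : ℝ), (1 : ℝ))‖ = 1 := by simp [Prod.norm_def]
  have hu : ‖A (1, 0)‖ ≤ ‖A‖ := by simpa [he.1] using A.le_opNorm (1, 0)
  have hv : ‖A (0, 1)‖ ≤ ‖A‖ := by simpa [he.2] using A.le_opNorm (0, 1)
  have a1 := (norm_fst_le (A (1, 0))).trans hu
  have a2 := (norm_snd_le (A (1, 0))).trans hu
  have a3 := (norm_fst_le (A (0, 1))).trans hv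
  have a4 := (norm_snd_le (A (0, 1))).trans hv
  rw [Real.norm_eq_abs] at a1 a2 a3 a4
  rw [← hA] at h
  simp [area] at h
  have := abs_sub ((A (1, 0)).1 * (A (0, 1)).2) ((A (1, 0)).2 * (A (0, 1)).1)
  rw [h, abs_mul, abs_mul] at this
  nlinarith [abs_nonneg (A (1, 0)).1, abs_nonneg (A (1, 0)).2, abs_nonneg (A (0, 1)).1,
    abs_nonneg (A (0, 1)).2, norm_nonneg A, mul_le_mul a1 a4 (abs_nonneg _) (norm_nonneg A),
    mul_le_mul a2 a3 (abs_nonneg _) (norm_nonneg A), abs_one (α := ℝ)]

theorem continuous_logNorm (n : ℕ) :
    Continuous fun p : ℝ × Torus => Real.log ‖derivN p.1 n p.2‖ :=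
  (continuous_derivN n).norm.log fun p => (lt_of_lt_of_le (by norm_num) (half_le_norm p.1 n p.2)).ne'

theorem continuous_logNorm_right (k : ℝ) (n : ℕ) :
    Continuous fun z : Torus => Real.log ‖derivN k n z‖ :=
  Continuous.comp (g := fun p : ℝ × Torus => Real.log ‖derivN p.1 n p.2‖)
    (f := fun z : Torus => (k, z)) (continuous_logNorm n) (continuous_const.prodMk continuous_id)

theorem integrable_logNorm (k : ℝ) (n : ℕ) :
    Integrable (fun z : Torus => Real.log ‖derivN k n z‖)
      ((volume : Measure UnitAddCircle).prod volume) := by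
  rw [← integrableOn_univ]
  exact (continuous_logNorm_right k n).continuousOn.integrableOn_compact isCompact_univ

theorem continuous_growth (n : ℕ) : Continuous fun k => growth k n := by
  have h := continuous_parametric_integral_of_continuous
    (μ := (volume : Measure UnitAddCircle).prod volume)
    (f := fun k z => Real.log ‖derivN k n z‖) (continuous_logNorm n) isCompact_univ
  simpa [growth] using h

theorem derivN_add (k : ℝ) (m n : ℕ) (z : Torus) :
    derivN k (m + n) z = (derivN k n ((stdMap k)^[m] z)).comp (derivN k m z) := by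
  induction n with
  | zero => simp [derivN]
  | succ n ih =>
      show (deriv1 k ((stdMap k)^[m + n] z)).comp (derivN k (m + n) z) = _
      rw [ih, ← ContinuousLinearMap.comp_assoc, Nat.add_comm m n, Function.iterate_add_apply]
      rfl

theorem logNorm_add_le (k : ℝ) (m n : ℕ) (z : Torus) :
    Real.log ‖derivN k (m + n) z‖ ≤
      Real.log ‖derivN k n ((stdMap k)^[m] z)‖ + Real.log ‖derivN k m z‖ := by
  have p : ∀ j w, 0 < ‖derivN k j w‖ := fun j w => lt_of_lt_of_le (by norm_num) (half_le_norm k j w)
  rw [← Real.log_mul (p _ _).ne' (p _ _).ne']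
  refine Real.log_le_log (p _ _) ?_
  rw [derivN_add]
  exact ContinuousLinearMap.opNorm_comp_le _ _

theorem subadditive_growth (k : ℝ) : Subadditive (growth k) := by
  intro m n
  have hm := (measurePreserving_stdMap k).iterate m
  have hi : Integrable (fun z : Torus => Real.log ‖derivN k n ((stdMap k)^[m] z)‖)
      ((volume : Measure UnitAddCircle).prod volume) :=
    hm.integrable_comp_of_integrable (integrable_logNorm k n)
  have he : ∫ z : Torus, Real.log ‖derivN k n ((stdMap k)^[m] z)‖
      ∂((volume : Measure UnitAddCircle).prod volume) = growth k n := by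
    have h := integral_map (μ := (volume : Measure UnitAddCircle).prod volume)
      hm.measurable.aemeasurable (f := fun z : Torus => Real.log ‖derivN k n z‖)
      (continuous_logNorm_right k n).aestronglyMeasurable
    rw [hm.map_eq] at h
    exact h.symm
  calc growth k (m + n)
      ≤ ∫ z : Torus, (Real.log ‖derivN k n ((stdMap k)^[m] z)‖ + Real.log ‖derivN k m z‖)
          ∂((volume : Measure UnitAddCircle).prod volume) :=
        integral_mono (integrable_logNorm k _) (hi.add (integrable_logNorm k m))
          (logNorm_add_le k m n)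
    _ = growth k m + growth k n := by
        rw [integral_add hi (integrable_logNorm k m), he]
        exact add_comm _ _

theorem bddBelow_growth (k : ℝ) : BddBelow (range fun n => growth k n / n) := by
  refine ⟨-Real.log 2, ?_⟩
  rintro _ ⟨n, rfl⟩
  have h : -Real.log 2 ≤ growth k n := by
    have := integral_mono (integrable_const (-Real.log 2)) (integrable_logNorm k n)
      (fun z => ?_)
    · simpa [growth] using this
    · rw [← Real.log_inv]
      exact Real.log_le_log (by norm_num) (by simpa using half_le_norm k n z)
  rcases Nat.eq_zero_or_pos n with rfl | hn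
  · simpa using (Real.log_nonneg (by norm_num : (1 : ℝ) ≤ 2))
  · have hn' : (1 : ℝ) ≤ n := by exact_mod_cast hn
    rw [le_div_iff₀ (by positivity)]
    nlinarith [Real.log_nonneg (by norm_num : (1 : ℝ) ≤ 2)]

/-- The limit of `growth k n / n`. -/
noncomputable def rate (k : ℝ) : ℝ := (subadditive_growth k).lim

theorem tendsto_rate (k : ℝ) : Tendsto (fun n => growth k n / n) atTop (𝓝 (rate k)) :=
  (subadditive_growth k).tendsto_lim (bddBelow_growth k)

theorem upperSemicontinuous_rate : UpperSemicontinuous rate := by
  intro k c hc
  obtain ⟨n, hn, hn0⟩ : ∃ n : ℕ, growth k n / n < c ∧ n ≠ 0 :=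
    (((tendsto_rate k).eventually (gt_mem_nhds hc)).and (eventually_ne_atTop 0)).exists
  have ho : ∀ᶠ k' in 𝓝 k, growth k' n / n < c :=
    ((continuous_growth n).div_const _).continuousAt.eventually (gt_mem_nhds hn)
  filter_upwards [ho] with k' hk'
  exact lt_of_le_of_lt ((subadditive_growth k').lim_le_div (bddBelow_growth k') hn0) hk'

theorem exists_closed_cover :
    ∃ C : ℕ → Set ℝ, (∀ j, IsClosed (C j)) ∧ {k | 0 < rate k} = ⋃ j, C j := by
  refine ⟨fun j => rate ⁻¹' Ici (1 / ((j : ℝ) + 1)), fun j =>
    upperSemicontinuous_rate.isClosed_preimage _, ?_⟩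
  ext k
  simp only [mem_setOf_eq, mem_iUnion, mem_preimage, mem_Ici]
  exact ⟨fun h => (exists_nat_one_div_lt h).imp fun j hj => hj.le,
    fun ⟨j, hj⟩ => lt_of_lt_of_le (by positivity) hj⟩

theorem integral_exponent (k : ℝ) (lam : Torus → ℝ)
    (h : ∀ᵐ z ∂((volume : Measure UnitAddCircle).prod volume),
      Tendsto (fun n : ℕ => Real.log ‖derivN k n z‖ / n) atTop (𝓝 (lam z))) :
    ∫ z, lam z ∂((volume : Measure UnitAddCircle).prod volume) = rate k := by
  obtain ⟨C, hC⟩ := (isCompact_univ (X := Torus)).exists_bound_of_continuousOn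
    ((continuous_deriv1.comp (continuous_const.prodMk continuous_id : Continuous
      fun z : Torus => (k, z))).continuousOn)
  set B := max C 2 with hB
  have hB2 : (2 : ℝ) ≤ B := le_max_right _ _
  have hup : ∀ n z, ‖derivN k n z‖ ≤ B ^ n := by
    intro n z
    induction n with
    | zero => simpa [derivN] using ContinuousLinearMap.norm_id_le
    | succ n ih =>
        calc ‖derivN k (n + 1) z‖ ≤ ‖deriv1 k ((stdMap k)^[n] z)‖ * ‖derivN k n z‖ :=
              ContinuousLinearMap.opNorm_comp_le _ _
          _ ≤ B * B ^ n := mul_le_mul ((hC _ (mem_univ _)).trans (le_max_left _ _)) ih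
              (norm_nonneg _) (by linarith)
          _ = B ^ (n + 1) := by ring
  have hlim : Tendsto (fun n : ℕ => ∫ z : Torus, Real.log ‖derivN k n z‖ / n
      ∂((volume : Measure UnitAddCircle).prod volume)) atTop
      (𝓝 (∫ z, lam z ∂((volume : Measure UnitAddCircle).prod volume))) := by
    refine tendsto_integral_of_dominated_convergence (fun _ => Real.log B + Real.log 2)
      (fun n => ((integrable_logNorm k n).div_const _).aestronglyMeasurable)
      (integrable_const _) (fun n => Filter.Eventually.of_forall fun z => ?_) h
    have hl0 : 0 ≤ Real.log 2 := Real.log_nonneg (by norm_num)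
    have hlB : 0 ≤ Real.log B := Real.log_nonneg (by linarith)
    rcases Nat.eq_zero_or_pos n with rfl | hn
    · simp only [Nat.cast_zero, div_zero, norm_zero]
      positivity
    have hn' : (1 : ℝ) ≤ n := by exact_mod_cast hn
    have hlo : -Real.log 2 ≤ Real.log ‖derivN k n z‖ := by
      rw [← Real.log_inv]
      exact Real.log_le_log (by norm_num) (by simpa using half_le_norm k n z)
    have hhi : Real.log ‖derivN k n z‖ ≤ n * Real.log B := by
      rw [← Real.log_pow]
      exact Real.log_le_log (lt_of_lt_of_le (by norm_num) (half_le_norm k n z)) (hup n z)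
    rw [Real.norm_eq_abs, abs_le]
    constructor
    · rw [le_div_iff₀ (by positivity)]; nlinarith
    · rw [div_le_iff₀ (by positivity)]; nlinarith
  refine tendsto_nhds_unique hlim ((tendsto_rate k).congr fun n => ?_)
  rw [growth, integral_div]

end Vale.Agent.P108
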